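import Vale.Agent.P272.K.Stmt
import Mathlib.Analysis.InnerProductSpace.l2Space
import Mathlib.MeasureTheory.Integral.CircleAverage
import Mathlib.Topology.Semicontinuity.Defs
import Mathlib.MeasureTheory.Measure.Lebesgue.Complex
import Mathlib.MeasureTheory.Constructions.Pi
import Mathlib.Analysis.SpecialFunctions.Pow.NNReal

/-!
# P284Z: definitions for the proof that special projective manifolds have amenable fundamental group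

See notes/P284_helper4.md. Functions with values in `[-∞, ∞)` are written multiplicatively:
`P = exp u ≥ 0`.
-/

open scoped ContDiff Topology ComplexOrder ENNReal
open Filter Set Metric MeasureTheory

noncomputable section

namespace Vale.Agent.P284Z

open Vale.Agent.P272.K

/-! ### plurisubharmonic functions -/

section psh
variable {W : Type} [NormedAddCommGroup W] [NormedSpace ℂ W]

/-- `u` is upper semicontinuous on `U` and has the sub-mean property on closed affine discs in `U`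
(used for functions which are bounded below). -/
def Psh (u : W → ℝ) (U : Set W) : Prop :=
  UpperSemicontinuousOn u U ∧ ∀ z w : W, (∀ ζ : ℂ, ‖ζ‖ ≤ 1 → z + ζ • w ∈ U) →
    u z ≤ Real.circleAverage (fun ζ : ℂ => u (z + ζ • w)) 0 1

/-- the truncated logarithm `max (log x) (-T)` -/
def lg (T x : ℝ) : ℝ := Real.log (max x (Real.exp (-T)))

/-- `P ≥ 0` and `log P` is plurisubharmonic on `U` (or `-∞`). -/
def LPsh (P : W → ℝ) (U : Set W) : Prop :=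
  (∀ z ∈ U, 0 ≤ P z) ∧ ∀ T : ℝ, Psh (fun z => lg T (P z)) U

/-- The Lelong number of `log P` at `z` is at most `ν`. -/
def SmallAt (P : W → ℝ) (ν : ℝ) (z : W) : Prop :=
  ∃ κ > 0, ∃ δ > 0, ∀ r ∈ Ioc (0 : ℝ) δ, ∃ z' ∈ closedBall z r, κ * r ^ ν ≤ P z'

end psh

/-! ### jets -/

/-- derivative along a list of constant vectors -/
def dl {W H : Type} [NormedAddCommGroup W] [NormedSpace ℂ W] [NormedAddCommGroup H]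
    [NormedSpace ℂ H] : List W → (W → H) → W → H
  | [], F => F
  | ξ :: L, F => fun z => fderiv ℂ (dl L F) z ξ

/-- the derivative `∂_ξ^α F (z)` along the frame `ξ` -/
def jet {W H : Type} [NormedAddCommGroup W] [NormedSpace ℂ W] [NormedAddCommGroup H]
    [NormedSpace ℂ H] {p : ℕ} (F : W → H) (z : W) (ξ : Fin p → W) (α : Fin p → ℕ) : H :=
  dl (List.ofFn fun i => List.replicate (α i) (ξ i)).flatten F z

/-- multi-indices of order at most `j` -/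
def Idx (p j : ℕ) : Type := {α : Fin p → ℕ // ∑ i, α i ≤ j}

instance (p j : ℕ) : Finite (Idx p j) := by
  refine Finite.of_injective (fun α : Idx p j => fun i : Fin p => (⟨α.1 i, ?_⟩ : Fin (j + 1))) ?_
  · exact Nat.lt_succ_of_le ((Finset.single_le_sum (f := α.1) (fun _ _ => Nat.zero_le _)
      (Finset.mem_univ i)).trans α.2)
  · intro α β h
    exact Subtype.ext (funext fun i => congrArg Fin.val (congrFun h i))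

/-! ### differential algebra -/

/-- commuting derivations of a field -/
structure Der (K : Type) [Field K] (n : ℕ) where
  d : Fin n → K →+ K
  mul : ∀ i f g, d i (f * g) = d i f * g + f * d i g
  comm : ∀ i j f, d i (d j f) = d j (d i f)

namespace Der
variable {K : Type} [Field K] {n : ℕ} (D : Der K n)

/-- the vector field with coefficients `b` -/
def vf (b : Fin n → K) (f : K) : K := ∑ i, b i * D.d i f

/-- the vector field `b` acts finitely on `v` -/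
def FinOn {ι : Type} (b : Fin n → K) (v : ι → K) : Prop :=
  Module.Finite K (Submodule.span K (range fun k : ℕ => fun i => (D.vf b)^[k] (v i)))

/-- `∂^α` in the directions `e` -/
def dd {p : ℕ} (e : Fin p → Fin n) (α : Fin p → ℕ) (f : K) : K :=
  (List.ofFn fun i => List.replicate (α i) (e i)).flatten.foldr (fun i g => D.d i g) f

end Der

/-- the coefficients of the field `∂_{w_l} + ∑ B l m ∂_{z_m}` -/
def leafVF {K : Type} [Field K] {n d p : ℕ} (e : Fin d ⊕ Fin p ≃ Fin n) (B : Fin d → Fin p → K)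
    (l : Fin d) (i : Fin n) : K :=
  Sum.elim (fun l' => if l' = l then 1 else 0) (fun m => B l m) (e.symm i)

/-! ### the covering -/

/-- A finite family of polydisc charts of the `Γ`-covering `E` of a compact complex manifold, with local
potentials `ρ` of a Kähler form. -/
structure Cov (n : ℕ) (Γ E : Type) [Group Γ] [TopologicalSpace E] [MulAction Γ E] where
  I : Type
  fin : Fintype I
  e : I → OpenPartialHomeomorph E (Cm n)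
  c : I → Cm n
  r : I → ℝ
  r_pos : ∀ a, 0 < r a
  tgt : ∀ a, (e a).target = ball (c a) (4 * r a)
  cont : ∀ γ : Γ, Continuous fun y : E => γ • y
  free : ∀ (γ : Γ) (y : E), γ • y = y → γ = 1
  disj : ∀ (γ : Γ) a y, y ∈ (e a).source → γ • y ∈ (e a).source → γ = 1
  cover : ∀ y : E, ∃ (γ : Γ) (a : I), ∃ z ∈ ball (c a) (r a), y = γ • (e a).symm z
  hol : ∀ (γ : Γ) a b z, z ∈ ball (c a) (4 * r a) → γ • (e a).symm z ∈ (e b).source →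
    AnalyticAt ℂ (fun w => e b (γ • (e a).symm w)) z
  proper : ∀ K : Set E, IsCompact K → {γ : Γ | ∃ y ∈ K, γ • y ∈ K}.Finite
  ρ : I → Cm n → ℝ
  ρ_sm : ∀ a, ∀ z ∈ ball (c a) (4 * r a), ContDiffAt ℝ ∞ (ρ a) z
  ρ_pos : ∀ a, ∀ z ∈ ball (c a) (4 * r a), (cHess (ρ a) z).PosDef
  ρ_ch : ∀ (γ : Γ) a b z, z ∈ ball (c a) (4 * r a) → γ • (e a).symm z ∈ (e b).source →
    ∃ g : Cm n → ℂ, AnalyticAt ℂ g z ∧
      ∀ᶠ w in 𝓝 z, ρ a w = ρ b (e b (γ • (e a).symm w)) + (g w).re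

attribute [instance] Cov.fin

variable {n : ℕ} {Γ E : Type} [Group Γ] [TopologicalSpace E] [MulAction Γ E]

namespace Cov
variable (C : Cov n Γ E)

/-- the polydisc of radius `k r` -/
def B (k : ℝ) (a : C.I) : Set (Cm n) := ball (C.c a) (k * C.r a)

/-- the point `z` of the chart `a` of the sheet `γ` -/
def pt (γ : Γ) (a : C.I) (z : Cm n) : E := γ • (C.e a).symm z

/-- the coordinate of `y` in the chart `a` of the sheet `γ` -/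
def co (γ : Γ) (a : C.I) (y : E) : Cm n := C.e a (γ⁻¹ • y)

/-- change of coordinates: `pt γ a z = pt 1 b (tr γ a b z)` on the overlap -/
def tr (γ : Γ) (a b : C.I) (z : Cm n) : Cm n := C.e b (C.pt γ a z)

/-- the overlap -/
def Ov (γ : Γ) (a b : C.I) (z : Cm n) : Prop := z ∈ C.B 4 a ∧ C.pt γ a z ∈ (C.e b).source

/-- `F` is holomorphic on `Ω` -/
def HolOn {W : Type} [NormedAddCommGroup W] [NormedSpace ℂ W] (F : E → W) (Ω : Set E) : Prop :=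
  ∀ γ a, ∀ z ∈ C.B 4 a, C.pt γ a z ∈ Ω → AnalyticAt ℂ (fun w => F (C.pt γ a w)) z

/-- the Lelong number of `log F` at `y` is at most `ν` (in every chart) -/
def Small (F : E → ℝ) (ν : ℝ) (y : E) : Prop :=
  ∀ γ a, ∀ z ∈ C.B 4 a, y = C.pt γ a z → SmallAt (fun w => F (C.pt γ a w)) ν z

end Cov

/-- A section `s` of the positive line bundle with weights `ρ`, its norm `σ`, and invariant meromorphic
coordinates `x`, étale outside of the zero set of `s`. -/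
structure Pol (C : Cov n Γ E) where
  s : C.I → Cm n → ℂ
  s_an : ∀ a, AnalyticOnNhd ℂ (s a) (C.B 4 a)
  s_ne : ∀ a, ∃ z ∈ C.B 4 a, s a z ≠ 0
  s_ch : ∀ γ a b z, C.Ov γ a b z → ∃ g : Cm n → ℂ, AnalyticAt ℂ g z ∧ g z ≠ 0 ∧
    ∀ᶠ w in 𝓝 z, s a w = g w * s b (C.tr γ a b w) ∧
      C.ρ a w = C.ρ b (C.tr γ a b w) + Real.log (‖g w‖ ^ 2)
  σ : E → ℝ
  σ_eq : ∀ γ a, ∀ z ∈ C.B 4 a, σ (C.pt γ a z) = ‖s a z‖ ^ 2 * Real.exp (-C.ρ a z)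
  σ_lt : ∀ y, σ y < 1
  x : E → Cm n
  x_inv : ∀ (γ : Γ) y, x (γ • y) = x y
  N : ℕ
  x_pole : ∀ a, ∃ X : Cm n → Cm n, AnalyticOnNhd ℂ X (C.B 4 a) ∧
    ∀ z ∈ C.B 4 a, s a z ≠ 0 → X z = s a z ^ N • x (C.pt 1 a z)
  dx_pole : ∀ a, ∃ M : Cm n → (Cm n →L[ℂ] Cm n), AnalyticOnNhd ℂ M (C.B 4 a) ∧
    ∀ z ∈ C.B 4 a, s a z ≠ 0 → (fderiv ℂ (fun w => x (C.pt 1 a w)) z).comp (M z) =
      s a z ^ N • ContinuousLinearMap.id ℂ (Cm n)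

/-- A countable `Γ`-set with an equivariant map to `Γ`. -/
structure IX (Γ : Type) [Group Γ] where
  ι : Type
  cnt : Countable ι
  act : MulAction Γ ι
  pos : ι → Γ
  pos_smul : ∀ (γ : Γ) (i : ι), pos (act.smul γ i) = γ * pos i

attribute [instance] IX.act IX.cnt

/-- the space `ℓ²(ι)` -/
abbrev IX.H (J : IX Γ) : Type := lp (fun _ : J.ι => ℂ) 2

/-- An equivariant holomorphic section of the `m`-th power of the line bundle, with values in `ℓ²`: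
`F` is the quotient by `s ^ m`, `L a` the expression in the chart `a` of the sheet `1`. -/
structure HSec {C : Cov n Γ E} (P : Pol C) (J : IX Γ) (m : ℕ) where
  F : E → J.H
  L : C.I → Cm n → J.H
  an : ∀ a, AnalyticOnNhd ℂ (L a) (C.B 4 a)
  eq : ∀ a, ∀ z ∈ C.B 4 a, P.s a z ≠ 0 → L a z = P.s a z ^ m • F (C.pt 1 a z)
  eqv : ∀ (γ : Γ) y i, 0 < P.σ y → F (γ • y) (γ • i) = F y i

namespace HSec
variable {C : Cov n Γ E} {P : Pol C} {J : IX Γ} {m : ℕ} (V : HSec P J m)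

/-- the coordinates of the value at the point `pt γ a z` -/
def val (γ : Γ) (a : C.I) (z : Cm n) (i : J.ι) : ℂ := V.L a z (γ⁻¹ • i)

/-- the square of the norm -/
def nm (a : C.I) (z : Cm n) : ℝ := ‖V.L a z‖ ^ 2 * Real.exp (-(m : ℝ) * C.ρ a z)

/-- `[V]` is immersive along the frame `ξ` at `z` -/
def Imm {p : ℕ} (a : C.I) (z : Cm n) (ξ : Fin p → Cm n) : Prop :=
  LinearIndependent ℂ (Fin.cons (V.L a z) fun i => fderiv ℂ (V.L a) z (ξ i) : Fin (p + 1) → J.H)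

/-- the points where `[V]` has rank at least `p` -/
def E0 (p : ℕ) : Set E :=
  {y | ∃ γ a, ∃ z ∈ C.B 4 a, y = C.pt γ a z ∧ ∃ ξ : Fin p → Cm n, V.Imm a z ξ}

/-- the values of `V` at `y` and `y'` are proportional -/
def Par (y y' : E) : Prop :=
  ∃ γ a, ∃ z ∈ C.B 4 a, ∃ γ' b, ∃ z' ∈ C.B 4 b, y = C.pt γ a z ∧ y' = C.pt γ' b z' ∧
    ∃ t : ℂ, t ≠ 0 ∧ ∀ i, V.val γ a z i = t * V.val γ' b z' i

/-- The germs of `[V]` at `pt γ a z` and at `pt γ' b z'` have the same image, and the frames `ξ`, `ξ'`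
correspond to each other. -/
def Match {p : ℕ} (γ : Γ) (a : C.I) (z : Cm n) (ξ : Fin p → Cm n) (γ' : Γ) (b : C.I) (z' : Cm n)
    (ξ' : Fin p → Cm n) : Prop :=
  z ∈ C.B 4 a ∧ z' ∈ C.B 4 b ∧ V.Imm a z ξ ∧
    ∃ (u u' : Cm p → Cm n) (t : Cm p → ℂ), AnalyticAt ℂ u 0 ∧ AnalyticAt ℂ u' 0 ∧
      AnalyticAt ℂ t 0 ∧ u 0 = z ∧ u' 0 = z' ∧ t 0 ≠ 0 ∧
      (∀ k, fderiv ℂ u 0 (Pi.single k 1) = ξ k) ∧ (∀ k, fderiv ℂ u' 0 (Pi.single k 1) = ξ' k) ∧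
      ∀ᶠ w in 𝓝 (0 : Cm p), ∀ i, V.val γ a (u w) i = t w * V.val γ' b (u' w) i

/-- **Datum V** -/
structure VD (p : ℕ) : Prop where
  one_le : 1 ≤ p
  rank : ∀ a, ∀ z ∈ C.B 4 a, ∀ ξ : Fin (p + 1) → Cm n, ¬ V.Imm a z ξ
  jets : ∀ j, ∃ a, ∃ z ∈ C.B 4 a, ∃ ξ : Fin p → Cm n,
    LinearIndependent ℂ fun α : Idx p j => jet (V.L a) z ξ α.1
  proper : ∀ K : Set E, IsCompact K → K ⊆ V.E0 p → ∃ K' : Set E, IsCompact K' ∧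
    ∀ y ∈ V.E0 p, ∀ y' ∈ K, V.Par y y' → y ∈ K'

end HSec

/-! ### level `j` data -/

/-- `F j = exp f_j`, `W l j = exp v_j^l`, the Reiter measures `m j`. -/
structure LD (C : Cov n Γ E) where
  A : ℝ
  A_pos : 0 < A
  F : ℕ → E → ℝ
  W : ℕ → ℕ → E → E → ℝ
  ε : ℕ → ℝ
  one_le : ∀ j, 1 ≤ ε j
  ε_tend : Tendsto ε atTop (𝓝 1)
  F_cont : ∀ j, Continuous (F j)
  F_nonneg : ∀ j y, 0 ≤ F j y
  F_le : ∀ j y, F j y ≤ 1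
  F_inv : ∀ j (γ : Γ) y, F j (γ • y) = F j y
  F_psh : ∀ j a, LPsh (fun z => F j (C.pt 1 a z) * Real.exp (A * C.ρ a z)) (C.B 4 a)
  F_sm : ∀ j a, ∀ z ∈ C.B 4 a, 0 < F j (C.pt 1 a z) →
    ContDiffAt ℝ ∞ (fun w => F j (C.pt 1 a w)) z
  W_cont : ∀ l j, Continuous fun q : E × E => W l j q.1 q.2
  W_nonneg : ∀ l j x y, 0 ≤ W l j x y
  W_le : ∀ l j x y, W l j x y ≤ ε j * (F j x * F j y)
  W_inv : ∀ l j (γ : Γ) x y, W l j (γ • x) (γ • y) = W l j x y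
  W_symm : ∀ l j x y, W l j x y = W l j y x
  W_psh : ∀ l j γ a b, LPsh (fun q : Cm n × Cm n => W l j (C.pt 1 a q.1) (C.pt γ b q.2) *
    Real.exp (A * C.ρ a q.1 + A * C.ρ b q.2)) (C.B 4 a ×ˢ C.B 4 b)
  W_sm : ∀ l j x γ b, ∀ z ∈ C.B 4 b, 0 < W l j x (C.pt γ b z) →
    ContDiffAt ℝ ∞ (fun w => W l j x (C.pt γ b w)) z
  chain : ∀ l, ∀ᶠ j in atTop, ∀ x₁ x₂ x₃ x₄, W l j x₁ x₄ * (F j x₂ * F j x₃) ≤
    ε j * max (W (l + 1) j x₁ x₂ * (F j x₃ * F j x₄))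
      (max (W (l + 1) j x₂ x₃ * (F j x₁ * F j x₄)) (W (l + 1) j x₃ x₄ * (F j x₁ * F j x₂)))
  c : ℕ → ℝ
  c_pos : ∀ l, 0 < c l
  c_anti : Antitone c
  pole : ∀ l, ∃ K : ℝ, ∀ᶠ j in atTop, ∀ a, ∀ z ∈ C.B 3 a, ∀ z' ∈ C.B 3 a,
    W l j (C.pt 1 a z) (C.pt 1 a z') ≤ K * ‖z - z'‖ ^ c l
  nondeg : ∃ K : Set E, IsCompact K ∧ ∀ l, ∀ᶠ j in atTop, ∃ x ∈ K, ∃ y ∈ K, 1 / 2 ≤ W l j x y
  m : ℕ → E → Γ → ℝ
  m_nonneg : ∀ j y g, 0 ≤ m j y g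
  m_sum : ∀ j y, 0 < F j y → HasSum (m j y) 1
  m_eqv : ∀ j (γ : Γ) y g, m j (γ • y) (γ * g) = m j y g
  η : ℕ → ℝ
  η_tend : Tendsto η atTop (𝓝 0)
  reiter : ∀ l, ∀ θ < (1 : ℝ), ∀ᶠ j in atTop, ∀ x y, 0 < F j x → 0 < F j y →
    W l j x y ≤ θ * (F j x * F j y) → ∑' g, |m j x g - m j y g| ≤ η l

/-- the subsequence -/
def LD.comp {C : Cov n Γ E} (D : LD C) (φ : ℕ → ℕ) (hφ : StrictMono φ) : LD C where
  A := D.A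
  A_pos := D.A_pos
  F := fun j => D.F (φ j)
  W := fun l j => D.W l (φ j)
  ε := fun j => D.ε (φ j)
  one_le := fun j => D.one_le (φ j)
  ε_tend := D.ε_tend.comp hφ.tendsto_atTop
  F_cont := fun j => D.F_cont (φ j)
  F_nonneg := fun j => D.F_nonneg (φ j)
  F_le := fun j => D.F_le (φ j)
  F_inv := fun j => D.F_inv (φ j)
  F_psh := fun j => D.F_psh (φ j)
  F_sm := fun j => D.F_sm (φ j)
  W_cont := fun l j => D.W_cont l (φ j)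
  W_nonneg := fun l j => D.W_nonneg l (φ j)
  W_le := fun l j => D.W_le l (φ j)
  W_inv := fun l j => D.W_inv l (φ j)
  W_symm := fun l j => D.W_symm l (φ j)
  W_psh := fun l j => D.W_psh l (φ j)
  W_sm := fun l j => D.W_sm l (φ j)
  chain := fun l => hφ.tendsto_atTop.eventually (D.chain l)
  c := D.c
  c_pos := D.c_pos
  c_anti := D.c_anti
  pole := fun l => (D.pole l).imp fun _ h => hφ.tendsto_atTop.eventually h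
  nondeg := D.nondeg.imp fun _ h => ⟨h.1, fun l => hφ.tendsto_atTop.eventually (h.2 l)⟩
  m := fun j => D.m (φ j)
  m_nonneg := fun j => D.m_nonneg (φ j)
  m_sum := fun j => D.m_sum (φ j)
  m_eqv := fun j => D.m_eqv (φ j)
  η := D.η
  η_tend := D.η_tend
  reiter := fun l θ hθ => hφ.tendsto_atTop.eventually (D.reiter l θ hθ)

/-- The frame potentials `Q j a z ξ = exp φ_j(z, ξ)` and `WQ l j x γ a z ξ = W Q / F`, with their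
relations to `V`. -/
structure LQ {C : Cov n Γ E} {P : Pol C} {J : IX Γ} {m : ℕ} (V : HSec P J m) (p : ℕ)
    (D : LD C) where
  Q : ℕ → C.I → Cm n → (Fin p → Cm n) → ℝ
  WQ : ℕ → ℕ → E → Γ → C.I → Cm n → (Fin p → Cm n) → ℝ
  δ : ℕ → ℝ
  δ_nonneg : ∀ j, 0 ≤ δ j
  δ_tend : Tendsto δ atTop (𝓝 0)
  τ : ℕ → ℝ
  τ_nonneg : ∀ j, 0 ≤ τ j
  τ_tend : Tendsto τ atTop (𝓝 0)
  Q_cont : ∀ j a, ContinuousOn (fun q : Cm n × (Fin p → Cm n) => Q j a q.1 q.2) (C.B 4 a ×ˢ univ)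
  Q_psh : ∀ j a, LPsh (fun q : Cm n × (Fin p → Cm n) => Q j a q.1 q.2 *
    Real.exp (δ j * C.ρ a q.1)) (C.B 4 a ×ˢ univ)
  Q_sm : ∀ j a, ∀ z ∈ C.B 4 a, ∀ ξ, 0 < Q j a z ξ →
    ContDiffAt ℝ ∞ (fun q : Cm n × (Fin p → Cm n) => Q j a q.1 q.2) (z, ξ)
  Q_ch : ∀ j γ a b z, C.Ov γ a b z → ∀ ξ, Q j a z ξ =
    Q j b (C.tr γ a b z) fun k => fderiv ℂ (C.tr γ a b) z (ξ k)
  Q_det : ∀ j a, ∀ z ∈ C.B 4 a, ∀ (M : Matrix (Fin p) (Fin p) ℂ) (ξ : Fin p → Cm n),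
    Q j a z (fun k => ∑ k', M k k' • ξ k') = ‖M.det‖ ^ (2 / (p + 1 : ℝ)) * Q j a z ξ
  Q_imm : ∀ j a, ∀ z ∈ C.B 4 a, ∀ ξ, 0 < Q j a z ξ → V.Imm a z ξ
  Q_bd : ∃ K : ℝ, ∀ j a, ∀ z ∈ C.B 3 a, ∀ ξ : Fin p → Cm n, ‖ξ‖ ≤ 1 → Q j a z ξ ≤ K
  Q_le : ∃ (K : ℝ) (N : ℕ), ∀ j a, ∀ z ∈ C.B 3 a, ∀ ξ : Fin p → Cm n, ‖ξ‖ ≤ 1 →
    Q j a z ξ * P.σ (C.pt 1 a z) ^ N ≤ K * D.F j (C.pt 1 a z)
  δ_le : ∀ j, δ j ≤ m * τ j
  F_imm : ∀ j a, ∀ z ∈ C.B 4 a, 0 < D.F j (C.pt 1 a z) → ∃ ξ, 0 < Q j a z ξ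
  F_an : ∀ j a, ∀ z₀ ∈ C.B 4 a, 0 < D.F j (C.pt 1 a z₀) → ∃ h : Cm n → ℂ,
    AnalyticOnNhd ℂ h (C.B 4 a) ∧ h z₀ ≠ 0 ∧ ∀ z ∈ C.B 4 a, h z ≠ 0 → 0 < D.F j (C.pt 1 a z)
  le_Q : ∀ a (K : Set (Cm n × (Fin p → Cm n))), IsCompact K →
    (∀ q ∈ K, q.1 ∈ C.B 4 a ∧ V.Imm a q.1 q.2) →
    ∃ κ > 0, ∀ j, ∀ q ∈ K, κ * D.F j (C.pt 1 a q.1) ≤ Q j a q.1 q.2
  Q_basic : ∀ j γ a z (ξ : Fin p → Cm n) γ' b z' ξ', V.Match γ a z ξ γ' b z' ξ' →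
    Q j a z ξ * V.nm b z' ^ τ j = Q j b z' ξ' * V.nm a z ^ τ j
  W_basic : ∀ l j x γ a z (ξ : Fin p → Cm n) γ' b z' ξ', V.Match γ a z ξ γ' b z' ξ' →
    D.W l j x (C.pt γ a z) * D.F j (C.pt γ' b z') = D.W l j x (C.pt γ' b z') * D.F j (C.pt γ a z)
  WQ_cont : ∀ l j x γ a, ContinuousOn (fun q : Cm n × (Fin p → Cm n) => WQ l j x γ a q.1 q.2)
    (C.B 4 a ×ˢ univ)
  WQ_eq : ∀ l j x γ a, ∀ z ∈ C.B 4 a, ∀ ξ, WQ l j x γ a z ξ * D.F j (C.pt γ a z) =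
    D.W l j x (C.pt γ a z) * Q j a z ξ
  WQ_le : ∀ l j x γ a, ∀ z ∈ C.B 4 a, ∀ ξ, WQ l j x γ a z ξ ≤ D.ε j * Q j a z ξ
  WQ_psh : ∀ l j x γ a, LPsh (fun q : Cm n × (Fin p → Cm n) => WQ l j x γ a q.1 q.2 *
    Real.exp (δ j * C.ρ a q.1)) (C.B 4 a ×ˢ univ)
  WQ_sm : ∀ l j x γ a, ∀ z ∈ C.B 4 a, ∀ ξ, 0 < WQ l j x γ a z ξ →
    ContDiffAt ℝ ∞ (fun q : Cm n × (Fin p → Cm n) => WQ l j x γ a q.1 q.2) (z, ξ)

/-- the subsequence -/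
def LQ.comp {C : Cov n Γ E} {P : Pol C} {J : IX Γ} {m : ℕ} {V : HSec P J m} {p : ℕ}
    {D : LD C} (R : LQ V p D) (φ : ℕ → ℕ) (hφ : StrictMono φ) : LQ V p (D.comp φ hφ) where
  Q := fun j => R.Q (φ j)
  WQ := fun l j => R.WQ l (φ j)
  δ := fun j => R.δ (φ j)
  δ_nonneg := fun j => R.δ_nonneg (φ j)
  δ_tend := R.δ_tend.comp hφ.tendsto_atTop
  τ := fun j => R.τ (φ j)
  τ_nonneg := fun j => R.τ_nonneg (φ j)
  τ_tend := R.τ_tend.comp hφ.tendsto_atTop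
  Q_cont := fun j => R.Q_cont (φ j)
  Q_psh := fun j => R.Q_psh (φ j)
  Q_sm := fun j => R.Q_sm (φ j)
  Q_ch := fun j => R.Q_ch (φ j)
  Q_det := fun j => R.Q_det (φ j)
  Q_imm := fun j => R.Q_imm (φ j)
  Q_bd := R.Q_bd.imp fun _ h j => h (φ j)
  Q_le := R.Q_le.imp fun _ h => h.imp fun _ h j => h (φ j)
  δ_le := fun j => R.δ_le (φ j)
  F_imm := fun j => R.F_imm (φ j)
  F_an := fun j => R.F_an (φ j)
  le_Q := fun a K hK h => (R.le_Q a K hK h).imp fun _ h' => ⟨h'.1, fun j => h'.2 (φ j)⟩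
  Q_basic := fun j => R.Q_basic (φ j)
  W_basic := fun l j => R.W_basic l (φ j)
  WQ_cont := fun l j => R.WQ_cont l (φ j)
  WQ_eq := fun l j => R.WQ_eq l (φ j)
  WQ_le := fun l j => R.WQ_le l (φ j)
  WQ_psh := fun l j => R.WQ_psh l (φ j)
  WQ_sm := fun l j => R.WQ_sm l (φ j)

/-! ### the limit -/

/-- `G` is the relaxed limit of the functions `g j`. -/
def RLim {Y : Type} [TopologicalSpace Y] (g : ℕ → Y → ℝ) (G : Y → ℝ) : Prop :=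
  ∀ y t, (G y < t → ∀ᶠ q : ℕ × Y in atTop ×ˢ 𝓝 y, g q.1 q.2 < t) ∧
    (t < G y → ∀ U ∈ 𝓝 y, ∀ᶠ j in atTop, ∃ y' ∈ U, t < g j y')

/-- The relaxed limits `F = exp f`, `W l = exp v^l` of the level `j` data. -/
structure Lim {C : Cov n Γ E} (D : LD C) where
  F : E → ℝ
  W : ℕ → E → E → ℝ
  F_lim : RLim D.F F
  W_lim : ∀ l, RLim (fun j (q : E × E) => D.W l j q.1 q.2) fun q => W l q.1 q.2
  F_nonneg : ∀ y, 0 ≤ F y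
  F_le : ∀ y, F y ≤ 1
  F_inv : ∀ (γ : Γ) y, F (γ • y) = F y
  F_psh : ∀ a, LPsh (fun z => F (C.pt 1 a z) * Real.exp (D.A * C.ρ a z)) (C.B 4 a)
  F_ae : ∀ a, ∀ᵐ z, z ∈ C.B 4 a → 0 < F (C.pt 1 a z) ∧
    Tendsto (fun j => D.F j (C.pt 1 a z)) atTop (𝓝 (F (C.pt 1 a z)))
  F_L1 : ∃ K : ℝ≥0∞, K < ⊤ ∧ ∀ j a,
    ∫⁻ z in C.B 3 a, ENNReal.ofReal |Real.log (D.F j (C.pt 1 a z))| ≤ K ∧
    ∀ᵐ z, z ∈ C.B 4 a → 0 < D.F j (C.pt 1 a z)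
  W_nonneg : ∀ l x y, 0 ≤ W l x y
  W_le : ∀ l x y, W l x y ≤ F x * F y
  W_inv : ∀ l (γ : Γ) x y, W l (γ • x) (γ • y) = W l x y
  W_symm : ∀ l x y, W l x y = W l y x
  W_psh : ∀ l γ a b, LPsh (fun q : Cm n × Cm n => W l (C.pt 1 a q.1) (C.pt γ b q.2) *
    Real.exp (D.A * C.ρ a q.1 + D.A * C.ρ b q.2)) (C.B 4 a ×ˢ C.B 4 b)
  W_ae : ∀ l γ a b, ∀ᵐ q : Cm n × Cm n, q ∈ C.B 4 a ×ˢ C.B 4 b →
    0 < W l (C.pt 1 a q.1) (C.pt γ b q.2)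
  chain : ∀ l x₁ x₂ x₃ x₄, W l x₁ x₄ * (F x₂ * F x₃) ≤
    max (W (l + 1) x₁ x₂ * (F x₃ * F x₄))
      (max (W (l + 1) x₂ x₃ * (F x₁ * F x₄)) (W (l + 1) x₃ x₄ * (F x₁ * F x₂)))
  mono : ∀ l x y, W l x y ≤ W (l + 1) x y
  pole : ∀ l, ∃ K : ℝ, ∀ a, ∀ z ∈ C.B 3 a, ∀ z' ∈ C.B 3 a,
    W l (C.pt 1 a z) (C.pt 1 a z') ≤ K * ‖z - z'‖ ^ D.c l

/-! ### the analytic sets `Z` -/

/-- The non-integrability loci. -/
structure ZD {C : Cov n Γ E} {D : LD C} (L : Lim D) where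
  Z : ℕ → Set (E × E)
  c' : ℕ → ℝ
  c'_pos : ∀ l, 0 < c' l
  c'_anti : Antitone c'
  c'_le : ∀ l, c' l ≤ D.c (l + 1)
  closed : ∀ l, IsClosed (Z l)
  inv : ∀ l (γ : Γ) x y, (x, y) ∈ Z l → (γ • x, γ • y) ∈ Z l
  symm : ∀ l x y, (x, y) ∈ Z l → (y, x) ∈ Z l
  an : ∀ l γ a b, ∃ S : Set (Cm n × Cm n → ℂ),
    (∀ f ∈ S, AnalyticOnNhd ℂ f (C.B 3 a ×ˢ C.B 3 b)) ∧
    ∀ q ∈ C.B 3 a ×ˢ C.B 3 b, (C.pt 1 a q.1, C.pt γ b q.2) ∈ Z l ↔ ∀ f ∈ S, f q = 0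
  mem : ∀ l γ a b, ∀ q ∈ C.B 4 a ×ˢ C.B 4 b, (∃ K : ℝ, ∀ᶠ q' in 𝓝 q,
    L.W l (C.pt 1 a q'.1) (C.pt γ b q'.2) ≤ K * ‖q' - q‖ ^ (D.c (l + 1) / 2)) →
    (C.pt 1 a q.1, C.pt γ b q.2) ∈ Z l
  bound : ∀ l, ∃ K : ℝ, ∀ γ a b, ∀ q ∈ C.B 2 a ×ˢ C.B 2 b, (C.pt 1 a q.1, C.pt γ b q.2) ∈ Z l →
    ∀ q' ∈ C.B 3 a ×ˢ C.B 3 b, L.W l (C.pt 1 a q'.1) (C.pt γ b q'.2) ≤ K * ‖q' - q‖ ^ c' l
  lelong : ∀ ν > (0 : ℝ), ∀ a, ∃ h : Cm n → ℂ, AnalyticOnNhd ℂ h (C.B 3 a) ∧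
    (∃ z ∈ C.B 3 a, h z ≠ 0) ∧ ∀ z ∈ C.B 3 a, h z ≠ 0 → C.Small L.F ν (C.pt 1 a z)

namespace ZD
variable {C : Cov n Γ E} {D : LD C} {L : Lim D} (Z : ZD L)

/-- the intersection of the first loci -/
def upto (l : ℕ) : Set (E × E) := {q | ∀ l' ≤ l, q ∈ Z.Z l'}

/-- the intersection of all the loci -/
def all : Set (E × E) := {q | ∀ l, q ∈ Z.Z l}

/-- the shell bound, at level `j` and in the limit -/
def SB : Prop := ∀ l (K : Set (E × E)), IsCompact K → Disjoint K (Z.upto l) →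
  ∃ κ > 0, (∀ᶠ j in atTop, ∀ q ∈ K,
    κ * min (D.F j q.1) (D.F j q.2) ^ 3 * (D.F j q.1 * D.F j q.2) ≤ D.W (l + 1) j q.1 q.2) ∧
    ∀ q ∈ K, κ * min (L.F q.1) (L.F q.2) ^ 3 * (L.F q.1 * L.F q.2) ≤ L.W (l + 1) q.1 q.2

/-- transitivity -/
def TR : Prop :=
  (∀ y, (y, y) ∈ Z.all) ∧
  (∀ x y, 0 < L.F x → 0 < L.F y → ((x, y) ∈ Z.all ↔ ∀ l, L.W l x y = 0)) ∧
  (∀ x y z, 0 < L.F x → 0 < L.F y → 0 < L.F z → (x, y) ∈ Z.all → (y, z) ∈ Z.all →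
    (x, z) ∈ Z.all) ∧
  ∀ l x y z, C.Small L.F (Z.c' (l + 2) / 4) x → C.Small L.F (Z.c' (l + 2) / 4) y →
    C.Small L.F (Z.c' (l + 2) / 4) z → (x, y) ∈ Z.Z (l + 2) → (y, z) ∈ Z.Z (l + 2) →
    (x, z) ∈ Z.upto l

end ZD

/-- A nice chart: a flow box in which `Z` is the relation of being on the same plaque. -/
structure NC {C : Cov n Γ E} {D : LD C} {L : Lim D} (Z : ZD L) (d q l₁ : ℕ) where
  Ψ : OpenPartialHomeomorph E (Cm d × Cm q)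
  R : ℝ
  R_pos : 0 < R
  tgt : Ψ.target = ball 0 R
  g : Γ
  a : C.I
  inch : ∀ y ∈ Ψ.source, ∃ z ∈ C.B 2 a, y = C.pt g a z
  hol : C.HolOn Ψ Ψ.source
  hol' : AnalyticOnNhd ℂ (fun u => C.co g a (Ψ.symm u)) (ball 0 R)
  rel : ∀ x ∈ Ψ.source, ∀ y ∈ Ψ.source, ((x, y) ∈ Z.upto l₁ → (Ψ x).2 = (Ψ y).2) ∧
    ((Ψ x).2 = (Ψ y).2 → (x, y) ∈ Z.all)

/-- The foliation. -/
structure FD {C : Cov n Γ E} {D : LD C} {L : Lim D} (Z : ZD L) where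
  d : ℕ
  q : ℕ
  l₁ : ℕ
  dim : d + q = n
  q_pos : 1 ≤ q
  En : Set E
  opn : IsOpen En
  inv : ∀ (γ : Γ) y, y ∈ En → γ • y ∈ En
  conn : IsPreconnected En
  thin : ∀ a, ∃ h : Cm n → ℂ, AnalyticOnNhd ℂ h (C.B 2 a) ∧ (∃ z ∈ C.B 2 a, h z ≠ 0) ∧
    ∀ z ∈ C.B 2 a, h z ≠ 0 → C.pt 1 a z ∈ En
  small : ∀ y ∈ En, C.Small L.F (Z.c' (l₁ + 2) / 6) y
  nice : ∀ y ∈ En, ∀ U ∈ 𝓝 y, ∃ N : NC Z d q l₁, y ∈ N.Ψ.source ∧ N.Ψ y = 0 ∧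
    N.Ψ.source ⊆ En ∩ U

/-- `[V]` is not constant along the plaques of the nice chart. -/
def Moves {C : Cov n Γ E} {P : Pol C} {J : IX Γ} {m : ℕ} (V : HSec P J m) {D : LD C} {L : Lim D}
    {Z : ZD L} {d q l₁ : ℕ} (N : NC Z d q l₁) : Prop :=
  ∃ u ∈ ball (0 : Cm d × Cm q) N.R, ∃ ζ : Cm d, LinearIndependent ℂ
    ![V.L N.a (C.co N.g N.a (N.Ψ.symm u)),
      fderiv ℂ (fun u => V.L N.a (C.co N.g N.a (N.Ψ.symm u))) u (ζ, 0)]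

/-- The tube over a small ball of a good slice of a nice chart. -/
structure TD {C : Cov n Γ E} {D : LD C} {L : Lim D} {Z : ZD L} (Φ : FD Z)
    (N : NC Z Φ.d Φ.q Φ.l₁) where
  a₀ : Cm Φ.d
  t₀ : Cm Φ.q
  R : ℝ
  R_pos : 0 < R
  sub : ∀ t ∈ closedBall t₀ R, (a₀, t) ∈ ball (0 : Cm Φ.d × Cm Φ.q) N.R
  good₀ : 0 < L.F (N.Ψ.symm (a₀, t₀)) ∧
    Tendsto (fun j => D.F j (N.Ψ.symm (a₀, t₀))) atTop (𝓝 (L.F (N.Ψ.symm (a₀, t₀))))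
  good : ∀ᵐ t, t ∈ ball t₀ R → 0 < L.F (N.Ψ.symm (a₀, t)) ∧
    Tendsto (fun j => D.F j (N.Ψ.symm (a₀, t))) atTop (𝓝 (L.F (N.Ψ.symm (a₀, t))))
  Ω : Set E
  s : E → Cm Φ.q
  opn : IsOpen Ω
  subEn : Ω ⊆ Φ.En
  mem : ∀ y ∈ Ω, s y ∈ ball t₀ R ∧ (N.Ψ.symm (a₀, s y), y) ∈ Z.all
  hol : C.HolOn s Ω
  subm : ∀ γ a, ∀ z ∈ C.B 4 a, C.pt γ a z ∈ Ω →
    Function.Surjective (fderiv ℂ (fun w => s (C.pt γ a w)) z)
  base : ∀ y ∈ N.Ψ.source, (N.Ψ y).2 ∈ ball t₀ R → y ∈ Ω ∧ s y = (N.Ψ y).2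
  clos : ∀ K : Set E, IsCompact K → K ⊆ Φ.En → ∀ r < R,
    IsCompact (K ∩ {y ∈ Ω | ‖s y - t₀‖ ≤ r})

/-- the recurrent case (a) -/
def TD.Rec {C : Cov n Γ E} {D : LD C} {L : Lim D} {Z : ZD L} {Φ : FD Z}
    {N : NC Z Φ.d Φ.q Φ.l₁} (T : TD Φ N) : Prop :=
  ∃ K : Set E, IsCompact K ∧ K ⊆ Φ.En ∧ ∃ r < T.R,
    {γ : Γ | ∃ y ∈ K, γ • y ∈ T.Ω ∧ ‖T.s (γ • y) - T.t₀‖ ≤ r}.Infinite

/-! ### the local structure of the group -/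

/-- small elements with their 1-jets, and almost invariant measures -/
structure LS (Γ : Type) [Group Γ] where
  M : ℕ
  N : Set Γ
  J : Γ → (Fin M → ℝ)
  ε₀ : ℝ
  ε₀_pos : 0 < ε₀
  K : ℝ
  one : (1 : Γ) ∈ N ∧ J 1 = 0
  mul : ∀ g ∈ N, ∀ h ∈ N, ‖J g‖ < ε₀ → ‖J h‖ < ε₀ →
    g * h ∈ N ∧ ‖J (g * h) - J g - J h‖ ≤ K * (‖J g‖ * ‖J h‖)
  inv : ∀ g ∈ N, ‖J g‖ < ε₀ → g⁻¹ ∈ N ∧ ‖J g⁻¹ + J g‖ ≤ K * ‖J g‖ ^ 2
  conj : ∀ a : Γ, ∃ ε > 0, ∃ K' : ℝ, ∀ g ∈ N, ‖J g‖ < ε →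
    a * g * a⁻¹ ∈ N ∧ ‖J (a * g * a⁻¹)‖ ≤ K' * ‖J g‖
  nondisc : ∀ ε > 0, ∃ g ∈ N, g ≠ 1 ∧ ‖J g‖ < ε
  m : ℕ → Γ → ℝ
  m_nonneg : ∀ j g, 0 ≤ m j g
  m_sum : ∀ j, HasSum (m j) 1
  reiter : ∀ η > 0, ∃ ε > 0, ∀ g ∈ N, ‖J g‖ < ε →
    ∀ᶠ j in atTop, ∑' h, |m j (g⁻¹ * h) - m j h| ≤ η

/-! ### basic tensors -/

/-- A holomorphic square integrable section of `(Λ^p T*)^k` on `E`. -/
structure Ten (C : Cov n Γ E) (p k : ℕ) where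
  τ : Γ → C.I → Cm n → (Fin p → Cm n) → ℂ
  an : ∀ γ a, AnalyticOnNhd ℂ (fun q : Cm n × (Fin p → Cm n) => τ γ a q.1 q.2) (C.B 4 a ×ˢ univ)
  ch : ∀ γ g a b z, C.Ov g a b z → ∀ ξ, τ (γ * g) a z ξ =
    τ γ b (C.tr g a b z) fun i => fderiv ℂ (C.tr g a b) z (ξ i)
  det : ∀ γ a, ∀ z ∈ C.B 4 a, ∀ (M : Matrix (Fin p) (Fin p) ℂ) (ξ : Fin p → Cm n),
    τ γ a z (fun i => ∑ i', M i i' • ξ i') = M.det ^ k * τ γ a z ξ
  l2 : ∀ a, ∑' γ : Γ, ∫⁻ q in C.B 3 a ×ˢ ball (0 : Fin p → Cm n) 1,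
    ‖τ γ a q.1 q.2‖ₑ ^ 2 < ⊤

/-- Tensors which are basic for the submersion `b` near all the translates of the point `z₀` of the chart
`a`, and generate the 1-jets there. -/
structure BT (C : Cov n Γ E) where
  p : ℕ
  k : ℕ
  p_pos : 1 ≤ p
  k_pos : 1 ≤ k
  a : C.I
  z₀ : Cm n
  mem : z₀ ∈ C.B 1 a
  b : Cm n → Cm p
  U : Set (Cm n)
  U_nhds : U ∈ 𝓝 z₀
  b_an : AnalyticAt ℂ b z₀
  b_surj : Function.Surjective (fderiv ℂ b z₀)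
  T : Option (Fin p) → Ten C p k
  h : Option (Fin p) → Γ → Cm p → ℂ
  basic : ∀ i γ, ∀ z ∈ U, ∀ ξ : Fin p → Cm n, (T i).τ γ a z ξ =
    (Matrix.of fun i j => fderiv ℂ b z (ξ j) i).det ^ k * h i γ (b z)
  h_an : ∀ i, AnalyticAt ℂ (h i 1) (b z₀)
  jet0 : h none 1 (b z₀) ≠ 0 ∧ ∀ i, h (some i) 1 (b z₀) = 0
  jet1 : ∀ η : Cm p, (∀ i, fderiv ℂ (h (some i) 1) (b z₀) η = 0) → η = 0

end Vale.Agent.P284Z
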