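import Vale.Agent.P284Z.Defs
import Vale.Agent.P284.H894.G.Amen

/-!
# P284Z: statements of the blocks (those which do not mention the base manifold)

See notes/P284_helper4.md.
-/

open scoped ContDiff Topology ENNReal
open Filter Set Metric MeasureTheory

noncomputable section

namespace Vale.Agent.P284Z

open Vale.Agent.P272.K Vale.Agent.P284.H894.G

/-- no nontrivial amenable normal subgroup -/
def NoRad (Γ : Type) [Group Γ] : Prop := ∀ N : Subgroup Γ, N.Normal → Folner N → N = ⊥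

/-- **R**: the quotient by the amenable radical -/
def StR : Prop := ∀ (G : Type) [Group G], ¬ Folner G →
  ∃ (Γ : Type) (_ : Group Γ) (f : G →* Γ), Function.Surjective f ∧ ¬ Folner Γ ∧ NoRad Γ

/-- **A**: a nowhere vanishing equivariant section with values in `ℓ²` -/
def StA : Prop :=
  ∀ (n : ℕ) (Γ E : Type) [Group Γ] [Countable Γ] [TopologicalSpace E] [T2Space E] [ConnectedSpace E]
    [MulAction Γ E] (C : Cov n Γ E) (P : Pol C),
    ∃ (J : IX Γ) (m : ℕ) (v : HSec P J m), ∀ a, ∀ z ∈ C.B 4 a, v.L a z ≠ 0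

/-- **B**: differential algebra -/
def StB : Prop :=
  ∀ (K : Type) [Field K] [CharZero K] (n : ℕ) (D : Der K n) (ι : Type) (v : ι → K), v ≠ 0 →
    ∃ (d p : ℕ) (e : Fin d ⊕ Fin p ≃ Fin n) (B : Fin d → Fin p → K) (ρ : ℕ)
      (S : Fin ρ → List (Fin d)) (w : Fin ρ → ι → K) (k : ℕ),
      (∀ t i, w t i = (S t).foldr (fun l g => D.vf (leafVF e B l) g) (v i)) ∧
      LinearIndependent K w ∧ v ∈ Submodule.span K (range w) ∧
      (∀ l t, (fun i => D.vf (leafVF e B l) (w t i)) ∈ Submodule.span K (range w)) ∧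
      (∀ b : Fin n → K, D.FinOn b v → ∀ m, b (e (.inr m)) = ∑ l, b (e (.inl l)) * B l m) ∧
      1 ≤ k ∧ ∀ j, LinearIndependent K fun (α : Idx p j) (i : Fin k → Fin ρ → ι) =>
        D.dd (fun m => e (.inr m)) α.1 (∏ u, (Matrix.of fun t t' => w t (i u t')).det)

/-- **C**: the datum `V` -/
def StC : Prop :=
  ∀ (n : ℕ) (Γ E : Type) [Group Γ] [Countable Γ] [Infinite Γ] [TopologicalSpace E] [T2Space E]
    [ConnectedSpace E] [MulAction Γ E] (C : Cov n Γ E) (P : Pol C) (J : IX Γ) (m : ℕ)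
    (v : HSec P J m), (∀ a, ∀ z ∈ C.B 4 a, v.L a z ≠ 0) →
    ∃ (J' : IX Γ) (m' : ℕ) (V : HSec P J' m') (p : ℕ), V.VD p

/-- **D, E**: the level `j` data -/
def StE : Prop :=
  ∀ (n : ℕ) (Γ E : Type) [Group Γ] [Countable Γ] [TopologicalSpace E] [T2Space E]
    [ConnectedSpace E] [MulAction Γ E] (C : Cov n Γ E) (P : Pol C) (J : IX Γ) (m : ℕ)
    (V : HSec P J m) (p : ℕ), V.VD p → ¬ Folner Γ → ∃ D : LD C, Nonempty (LQ V p D)

/-- **F**: relaxed limits -/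
def StF : Prop :=
  ∀ (n : ℕ) (Γ E : Type) [Group Γ] [Countable Γ] [TopologicalSpace E] [T2Space E]
    [ConnectedSpace E] [MulAction Γ E] (C : Cov n Γ E) (D : LD C),
    ∃ (φ : ℕ → ℕ) (hφ : StrictMono φ), Nonempty (Lim (D.comp φ hφ))

/-- **Z**: the non-integrability loci (Skoda, Bombieri) -/
def StZ : Prop :=
  ∀ (n : ℕ) (Γ E : Type) [Group Γ] [Countable Γ] [TopologicalSpace E] [T2Space E]
    [ConnectedSpace E] [MulAction Γ E] (C : Cov n Γ E) (D : LD C) (L : Lim D), Nonempty (ZD L)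

/-- **S**: the shell bound and transitivity -/
def StS : Prop :=
  ∀ (n : ℕ) (Γ E : Type) [Group Γ] [Countable Γ] [TopologicalSpace E] [T2Space E]
    [ConnectedSpace E] [MulAction Γ E] (C : Cov n Γ E) (D : LD C) (L : Lim D) (Z : ZD L),
    Z.SB ∧ Z.TR

/-- **G**: nice charts -/
def StG : Prop :=
  ∀ (n : ℕ) (Γ E : Type) [Group Γ] [Countable Γ] [TopologicalSpace E] [T2Space E]
    [ConnectedSpace E] [MulAction Γ E] (C : Cov n Γ E) (D : LD C) (L : Lim D) (Z : ZD L),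
    Z.TR → Nonempty (FD Z)

/-- **H**: the tube, and the holonomy in the recurrent case -/
def StH : Prop :=
  ∀ (n : ℕ) (Γ E : Type) [Group Γ] [Countable Γ] [TopologicalSpace E] [T2Space E]
    [ConnectedSpace E] [MulAction Γ E] (C : Cov n Γ E) (D : LD C) (L : Lim D) (Z : ZD L),
    Z.SB → Z.TR → ∀ (Φ : FD Z) (N : NC Z Φ.d Φ.q Φ.l₁), N.Ψ.source ⊆ Φ.En →
    ∃ T : TD Φ N, T.Rec → Nonempty (LS Γ)

/-- **I**: groups -/
def StI : Prop := ∀ (Γ : Type) [Group Γ], Group.FG Γ → NoRad Γ → LS Γ → False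

/-- **J, K**: the wandering case -/
def StK : Prop :=
  ∀ (n : ℕ) (Γ E : Type) [Group Γ] [Countable Γ] [TopologicalSpace E] [T2Space E]
    [ConnectedSpace E] [MulAction Γ E] (C : Cov n Γ E) (P : Pol C) (J : IX Γ) (m : ℕ)
    (V : HSec P J m) (p : ℕ), V.VD p → ∀ (D : LD C) (L : Lim D) (Z : ZD L), Z.SB →
    ∀ (Φ : FD Z) (N : NC Z Φ.d Φ.q Φ.l₁), N.Ψ.source ⊆ Φ.En → Moves V N →
    ∀ T : TD Φ N, ¬ T.Rec → False

/-- **L**: pluricanonical forms of the space of leaves -/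
def StL : Prop :=
  ∀ (n : ℕ) (Γ E : Type) [Group Γ] [Countable Γ] [TopologicalSpace E] [T2Space E]
    [ConnectedSpace E] [MulAction Γ E] (C : Cov n Γ E) (P : Pol C) (J : IX Γ) (m : ℕ)
    (V : HSec P J m) (p : ℕ), V.VD p → ∀ (D : LD C) (_ : LQ V p D) (L : Lim D) (Z : ZD L), Z.SB →
    ∀ Φ : FD Z, (∀ N : NC Z Φ.d Φ.q Φ.l₁, N.Ψ.source ⊆ Φ.En → ¬ Moves V N) → Nonempty (BT C)

/-- The core of the proof: basic tensors exist on the covering. -/
theorem core (hA : StA) (hC : StC) (hE : StE) (hF : StF) (hZ : StZ) (hS : StS) (hG : StG)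
    (hH : StH) (hI : StI) (hK : StK) (hL : StL) {n : ℕ} {Γ E : Type} [Group Γ] [Countable Γ]
    [Infinite Γ] [TopologicalSpace E] [T2Space E] [ConnectedSpace E] [MulAction Γ E]
    (C : Cov n Γ E) (P : Pol C) (hfg : Group.FG Γ) (hna : ¬ Folner Γ) (hR : NoRad Γ) :
    Nonempty (BT C) := by
  obtain ⟨J, m, v, hv⟩ := hA n Γ E C P
  obtain ⟨J', m', V, p, hV⟩ := hC n Γ E C P J m v hv
  obtain ⟨D, ⟨R⟩⟩ := hE n Γ E C P J' m' V p hV hna
  obtain ⟨φ, hφ, ⟨L⟩⟩ := hF n Γ E C D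
  obtain ⟨Z⟩ := hZ n Γ E C _ L
  obtain ⟨hSB, hTR⟩ := hS n Γ E C _ L Z
  obtain ⟨Φ⟩ := hG n Γ E C _ L Z hTR
  refine hL n Γ E C P J' m' V p hV _ (R.comp φ hφ) L Z hSB Φ fun N hN hM => ?_
  obtain ⟨T, hT⟩ := hH n Γ E C _ L Z hSB hTR Φ N hN
  by_cases h : T.Rec
  · obtain ⟨S⟩ := hT h
    exact hI Γ hfg hR S
  · exact hK n Γ E C P J' m' V p hV _ L Z hSB Φ N hN hM T h

end Vale.Agent.P284Z
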