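import Vale.Agent.P284Z.Spec
import Vale.Agent.P284.H837.N.S
import Mathlib.SetTheory.Cardinal.Free

/-!
# P284Z: statements of the blocks which mention the base manifold, and the assembly
-/

open scoped Manifold ContDiff Topology
open Filter Set Metric

noncomputable section

namespace Vale.Agent.P284Z

open Vale.Agent.P272.K Vale.Agent.P284.H894.G Vale.Agent.P284.H998 Vale.Agent.P284.H837.N

/-- The charts of `C` are lifted from the atlas of `X`. -/
def Over {n : ℕ} {Γ E X : Type} [Group Γ] [TopologicalSpace E] [MulAction Γ E] [TopologicalSpace X]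
    [ChartedSpace (Cm n) X] (C : Cov n Γ E) (p : E → X) : Prop :=
  ∀ a, ∃ e : Chart n X, ∀ y ∈ (C.e a).source, At e (p y) ∧ C.e a y = e (p y)

/-- **O**: the covering, its charts and the polarisation -/
def StO : Prop :=
  ∀ (n : ℕ) (X : Type) [TopologicalSpace X] [T2Space X] [CompactSpace X] [ConnectedSpace X]
    [ChartedSpace (Cm n) X] [IsManifold 𝓘(ℂ, Cm n) ω X] (ι : Type) [Fintype ι] (_ : PJ n X ι)
    (x : X) (Γ : Type) [Group Γ] [Infinite Γ] (f : FundamentalGroup X x →* Γ),
    Function.Surjective f → Group.FG Γ ∧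
    ∃ (E : Type) (_ : TopologicalSpace E) (_ : T2Space E) (_ : ConnectedSpace E) (_ : MulAction Γ E)
      (p : E → X) (C : Cov n Γ E), IsGalois Γ p ∧ Over C p ∧ Nonempty (Pol C)

/-- **N**: basic tensors give a natural form of full rank -/
def StN : Prop :=
  ∀ (n : ℕ) (X : Type) [TopologicalSpace X] [T2Space X] [CompactSpace X] [ConnectedSpace X]
    [ChartedSpace (Cm n) X] [IsManifold 𝓘(ℂ, Cm n) ω X] (Γ E : Type) [Group Γ] [Countable Γ]
    [TopologicalSpace E] [T2Space E] [ConnectedSpace E] [MulAction Γ E] (p : E → X)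
    (C : Cov n Γ E), IsGalois Γ p → Over C p → BT C → ¬ NoV n X

theorem folner_of (hR : StR) (hO : StO) (hN : StN) (hA : StA) (hC : StC) (hE : StE) (hF : StF)
    (hZ : StZ) (hS : StS) (hG : StG) (hH : StH) (hI : StI) (hK : StK) (hL : StL)
    (hfin : ∀ (A : Type) [Group A] [Finite A], Folner A)
    {n : ℕ} {X : Type} [TopologicalSpace X] [T2Space X] [CompactSpace X] [ConnectedSpace X]
    [ChartedSpace (Cm n) X] [IsManifold 𝓘(ℂ, Cm n) ω X] {ι : Type} [Fintype ι] (D : PJ n X ι)
    (hV : NoV n X) (x : X) : Folner (FundamentalGroup X x) := by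
  by_contra h
  obtain ⟨Γ, _, f, hf, hna, hrad⟩ := hR _ h
  have : Infinite Γ := by
    by_contra hi
    have : Finite Γ := not_infinite_iff_finite.1 hi
    exact hna (hfin Γ)
  obtain ⟨hfg, E, _, _, _, _, p, C, hp, hov, ⟨P⟩⟩ := hO n X ι D x Γ f hf
  have : Countable Γ := by
    obtain ⟨S, hS⟩ := (Group.fg_iff.1 hfg)
    have h1 : (Subgroup.closure S : Set Γ).Countable := by
      have := hS.2.countable.to_subtype
      rw [← Subgroup.range_subtype (Subgroup.closure S)]
      have h2 : Function.Surjective (FreeGroup.lift (fun s : S => (s : Γ))) := by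
        rw [← MonoidHom.range_eq_top, FreeGroup.range_lift_eq_closure, Subtype.range_coe, hS.1]
      exact (Set.countable_univ_iff.2 h2.countable).mono (subset_univ _)
    rw [hS.1] at h1
    exact Set.countable_univ_iff.1 h1
  obtain ⟨B⟩ := core hA hC hE hF hZ hS hG hH hI hK hL C P hfg hna hrad
  exact hN n X Γ E p C hp hov B hV

end Vale.Agent.P284Z
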