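import Vale.Agent.P284Z.SpecX
import Vale.Agent.P284Z.R.Main
import Vale.Agent.P284Z.O.Main
import Vale.Agent.P284Z.N.Main
import Vale.Agent.P284Z.A.Fin
import Vale.Agent.P284Z.C.Fin
import Vale.Agent.P284Z.E.Main
import Vale.Agent.P284Z.F.Main
import Vale.Agent.P284Z.Z.Main
import Vale.Agent.P284Z.S.SB
import Vale.Agent.P284Z.G.Main
import Vale.Agent.P284Z.H.Main
import Vale.Agent.P284Z.I.Final
import Vale.Agent.P284Z.K.Main
import Vale.Agent.P284Z.L.Main
import Vale.Agent.P284.H837.VAF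

/-!
# P284Z: all the blocks
-/

open scoped Manifold ContDiff

noncomputable section

namespace Vale.Agent.P284Z

open Vale.Agent.P272.K Vale.Agent.P284.H894.G Vale.Agent.P284.H998 Vale.Agent.P284.H837.N

theorem stL_eng (hE : L.Eng) : StL :=
  L.stL_of hE stJ L.stQ L.st0 L.st1 L.st2a L.st2b L.st3 L.st4a L.st4b L.st4c L.st4d L.st5a L.st5b
    L.st6a L.st6b L.st6c L.st7a L.st7b L.st8a L.st8b

theorem folner_pj (hE : L.Eng) {n : ℕ} {X : Type} [TopologicalSpace X] [T2Space X] [CompactSpace X]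
    [ConnectedSpace X] [ChartedSpace (Cm n) X] [IsManifold 𝓘(ℂ, Cm n) ω X] {ι : Type} [Fintype ι]
    (D : PJ n X ι) (hV : NoV n X) (x : X) : Folner (FundamentalGroup X x) :=
  folner_of stR stO stN stA stC stE stF stZ stS stG stH stI stK (stL_eng hE)
    (fun _ _ _ => Vale.Agent.P284.H837.folner_fin) D hV x

theorem folner_of_pj {n : ℕ} {X : Type} [TopologicalSpace X] [T2Space X] [CompactSpace X]
    [ConnectedSpace X] [ChartedSpace (Cm n) X] [IsManifold 𝓘(ℂ, Cm n) ω X] {ι : Type} [Fintype ι]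
    (D : PJ n X ι) (hV : NoV n X) (x : X) : Folner (FundamentalGroup X x) :=
  folner_pj L.eng D hV x

end Vale.Agent.P284Z
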