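import Vale.Agent.P284Z.All
import Vale.Agent.P284Z.L.Main
import Vale.Agent.P284.H212.PJ
import Vale.Agent.P284.H212.Pos
import Vale.Agent.P284.H553.K8.EngF
import Vale.Agent.Results.P284.SpecialAmenable

/-!
# P284Z: assembly for projective manifolds
-/

open scoped Manifold ContDiff

noncomputable section

namespace Vale.Agent.P284Z

open Vale.Agent.P272.K Vale.Agent.P284.H248 Vale.Agent.P284.H894 Vale.Agent.P284.H894.G
  Vale.Agent.P284.H894.F

theorem proj {n : ℕ} {X : Type} [TopologicalSpace X] [T2Space X] [CompactSpace X]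
    [ConnectedSpace X] [ChartedSpace (Cm n) X] [IsManifold 𝓘(ℂ, Cm n) ω X]
    (hX : Vale.Agent.P300.Final.IsSmoothProjective (Cm n) X) (hS : Special n X) (x : X) :
    VirtAbelianRank (FundamentalGroup X x) (2 * n) := by
  obtain ⟨ι, _, ⟨D⟩⟩ := Vale.Agent.P284.H212.pjStmt n X hX
  have hw := Vale.Agent.P284.H212.pjFS_isKahler D
  refine (Vale.Agent.Results.P284.SpecialAmenable.result ⟨_, hw⟩ hS x).1 _ (MonoidHom.id _)
    Function.surjective_id ?_
  exact folner_pj L.eng D (Vale.Agent.P284.H553.K8.spKN n X _ hw hS) x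

end Vale.Agent.P284Z
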